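import Mathlib
import Vale.Agent.Lib.P243.R3.Defs

/-!
# P243, `r_3 > 1/3`: parts of module M1 (the functional `Ahat`) and M9b (sandwich)

Covariance of `Ahat` under affine maps and homotheties, nonnegativity, continuity in the
direction, and the sandwich lemma for Hausdorff-close convex bodies.
-/

namespace Vale.Agent.Lib.P243.R3.H25

open MeasureTheory Set Vale.Agent.Lib.P243.R3
open scoped Pointwise

theorem isCompact_seg (a b : E3) : IsCompact (segment ℝ a b) := by
  rw [segment_eq_image]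
  exact isCompact_Icc.image (by fun_prop)

theorem subset_add_seg (K : Set E3) (w : E3) : K ⊆ K + segment ℝ (0 : E3) w := by
  intro x hx
  exact ⟨x, hx, 0, left_mem_segment ℝ _ _, add_zero x⟩

theorem vol_add_seg_ne_top {K : Set E3} (hKc : IsCompact K) (w : E3) :
    volume (K + segment ℝ (0 : E3) w) ≠ ⊤ :=
  (hKc.add (isCompact_seg 0 w)).measure_lt_top.ne

theorem M1g_Ahat_nonneg {K : Set E3} (hKc : IsCompact K) (w : E3) : 0 ≤ Ahat K w := by
  unfold Ahat
  have := ENNReal.toReal_mono (vol_add_seg_ne_top hKc w) (measure_mono (subset_add_seg K w))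
  linarith

/-! ### Affine maps -/

theorem aff_image_add (L : E3 ≃L[ℝ] E3) (v : E3) (K : Set E3) (w : E3) :
    aff L v '' K + segment ℝ (0 : E3) (L w) = aff L v '' (K + segment ℝ (0 : E3) w) := by
  have hseg : segment ℝ (0 : E3) (L w) = L '' segment ℝ (0 : E3) w := by
    have := image_segment (𝕜 := ℝ) (L : E3 →ₗ[ℝ] E3).toAffineMap (0 : E3) w
    simpa using this.symm
  rw [hseg]
  ext y
  constructor
  · rintro ⟨_, ⟨x, hx, rfl⟩, _, ⟨s, hs, rfl⟩, rfl⟩
    refine ⟨x + s, ⟨x, hx, s, hs, rfl⟩, ?_⟩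
    simp only [aff, map_add]
    abel
  · rintro ⟨_, ⟨x, hx, s, hs, rfl⟩, rfl⟩
    refine ⟨aff L v x, ⟨x, hx, rfl⟩, L s, ⟨s, hs, rfl⟩, ?_⟩
    simp only [aff, map_add]
    abel

theorem vol_aff_image (L : E3 ≃L[ℝ] E3) (v : E3) (A : Set E3) :
    volume (aff L v '' A) = ENNReal.ofReal |LinearMap.det (L : E3 →ₗ[ℝ] E3)| * volume A := by
  have h : aff L v '' A = (fun y => y + v) '' (L '' A) := by
    rw [Set.image_image]
    rfl
  rw [h, Set.image_add_right, measure_preimage_add_right,
    Measure.addHaar_image_continuousLinearEquiv]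

theorem M1d_Ahat_aff (L : E3 ≃L[ℝ] E3) (v : E3) (K : Set E3) (w : E3) :
    Ahat (aff L v '' K) (L w) = |LinearMap.det (L : E3 →ₗ[ℝ] E3)| * Ahat K w := by
  unfold Ahat
  rw [aff_image_add, vol_aff_image, vol_aff_image, ENNReal.toReal_mul, ENNReal.toReal_mul,
    ENNReal.toReal_ofReal (abs_nonneg _)]
  ring

/-! ### Homotheties -/

theorem hom_eq_homothety (c : E3) (r : ℝ) : hom c r = ⇑(AffineMap.homothety c r) := by
  funext x
  simp [hom, AffineMap.homothety_apply, add_comm]

theorem hom_image_add (c : E3) (r : ℝ) (K : Set E3) (w : E3) :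
    hom c r '' K + segment ℝ (0 : E3) (r • w) = hom c r '' (K + segment ℝ (0 : E3) w) := by
  have hseg : segment ℝ (0 : E3) (r • w) = (fun s => r • s) '' segment ℝ (0 : E3) w := by
    have := image_segment (𝕜 := ℝ) ((r • LinearMap.id : E3 →ₗ[ℝ] E3)).toAffineMap (0 : E3) w
    simpa using this.symm
  rw [hseg]
  ext y
  constructor
  · rintro ⟨_, ⟨x, hx, rfl⟩, _, ⟨s, hs, rfl⟩, rfl⟩
    refine ⟨x + s, ⟨x, hx, s, hs, rfl⟩, ?_⟩
    simp only [hom]
    module
  · rintro ⟨_, ⟨x, hx, s, hs, rfl⟩, rfl⟩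
    refine ⟨hom c r x, ⟨x, hx, rfl⟩, r • s, ⟨s, hs, rfl⟩, ?_⟩
    simp only [hom]
    module

theorem vol_hom_image (c : E3) {r : ℝ} (hr : 0 ≤ r) (A : Set E3) :
    volume (hom c r '' A) = ENNReal.ofReal (r ^ 3) * volume A := by
  rw [hom_eq_homothety, Measure.addHaar_image_homothety]
  congr 2
  have h3 : Module.finrank ℝ E3 = 3 := by simp
  rw [h3, abs_of_nonneg (by positivity)]

theorem M1e_Ahat_hom (c : E3) {r : ℝ} (hr : 0 < r) (K : Set E3) (w : E3) :
    Ahat (hom c r '' K) (r • w) = r ^ 3 * Ahat K w := by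
  unfold Ahat
  rw [hom_image_add, vol_hom_image c hr.le, vol_hom_image c hr.le, ENNReal.toReal_mul,
    ENNReal.toReal_mul, ENNReal.toReal_ofReal (by positivity)]
  ring

/-! ### A convex set containing a ball absorbs a small neighbourhood after a homothety -/

theorem add_ball_subset_hom {A : Set E3} (hA : Convex ℝ A) {c : E3} {ρ : ℝ} (hρ : 0 < ρ)
    (hball : Metric.closedBall c ρ ⊆ A) {ε : ℝ} (hε : 0 ≤ ε) :
    A + Metric.closedBall (0 : E3) ε ⊆ hom c (1 + ε / ρ) '' A := by
  rintro _ ⟨x, hx, u, hu, rfl⟩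
  rw [mem_closedBall_zero_iff] at hu
  rcases hε.eq_or_lt with h0 | hpos
  · have hu0 : u = 0 := by
      rw [← h0] at hu
      exact norm_le_zero_iff.mp hu
    refine ⟨x, hx, ?_⟩
    simp [hom, ← h0, hu0]
  · have hz : c + (ρ / ε) • u ∈ A := by
      apply hball
      rw [Metric.mem_closedBall, dist_eq_norm, add_sub_cancel_left, norm_smul,
        Real.norm_of_nonneg (by positivity)]
      calc ρ / ε * ‖u‖ ≤ ρ / ε * ε := mul_le_mul_of_nonneg_left hu (by positivity)
        _ = ρ := by field_simp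
    have hmem : (ρ / (ρ + ε)) • x + (ε / (ρ + ε)) • (c + (ρ / ε) • u) ∈ A := by
      apply hA hx hz (by positivity) (by positivity)
      field_simp
    refine ⟨_, hmem, ?_⟩
    simp only [hom]
    match_scalars
    all_goals field_simp
    all_goals ring

/-! ### Continuity of `Ahat` in the direction -/

theorem vol_add_seg_le {K : Set E3} (hKv : Convex ℝ K) {c : E3} {ρ : ℝ} (hρ : 0 < ρ)
    (hball : Metric.closedBall c ρ ⊆ K) (w w' : E3) :
    volume (K + segment ℝ (0 : E3) w) ≤
      ENNReal.ofReal ((1 + ‖w - w'‖ / ρ) ^ 3) * volume (K + segment ℝ (0 : E3) w') := by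
  have hconv : Convex ℝ (K + segment ℝ (0 : E3) w') := hKv.add (convex_segment _ _)
  have hball' : Metric.closedBall c ρ ⊆ K + segment ℝ (0 : E3) w' :=
    hball.trans (subset_add_seg K w')
  have hsub : K + segment ℝ (0 : E3) w ⊆
      (K + segment ℝ (0 : E3) w') + Metric.closedBall (0 : E3) ‖w - w'‖ := by
    rintro _ ⟨x, hx, s, hs, rfl⟩
    rw [segment_eq_image'] at hs
    obtain ⟨t, ht, rfl⟩ := hs
    refine ⟨x + t • w', ⟨x, hx, t • w', ?_, rfl⟩, t • (w - w'), ?_, ?_⟩
    · rw [segment_eq_image']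
      exact ⟨t, ht, by simp⟩
    · rw [mem_closedBall_zero_iff, norm_smul, Real.norm_of_nonneg ht.1]
      exact mul_le_of_le_one_left (norm_nonneg _) ht.2
    · simp only [sub_zero, zero_add]
      module
  calc volume (K + segment ℝ (0 : E3) w)
      ≤ volume (hom c (1 + ‖w - w'‖ / ρ) '' (K + segment ℝ (0 : E3) w')) :=
        measure_mono (hsub.trans (add_ball_subset_hom hconv hρ hball' (norm_nonneg _)))
    _ = _ := vol_hom_image c (by positivity) _

theorem exists_closedBall_subset {K : Set E3} (hK : Body K) :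
    ∃ (c : E3) (ρ : ℝ), 0 < ρ ∧ Metric.closedBall c ρ ⊆ K := by
  obtain ⟨c, hc⟩ := hK.int
  obtain ⟨ρ, hρ, h⟩ := Metric.nhds_basis_closedBall.mem_iff.mp (mem_interior_iff_mem_nhds.mp hc)
  exact ⟨c, ρ, hρ, h⟩

theorem M1f_Ahat_continuous {K : Set E3} (hK : Body K) : Continuous (Ahat K) := by
  obtain ⟨c, ρ, hρ, hball⟩ := exists_closedBall_subset hK
  have hV : ∀ w w', (volume (K + segment ℝ (0 : E3) w)).toReal ≤
      (1 + ‖w - w'‖ / ρ) ^ 3 * (volume (K + segment ℝ (0 : E3) w')).toReal := by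
    intro w w'
    have h := vol_add_seg_le hK.conv hρ hball w w'
    have h2 := ENNReal.toReal_mono
      (ENNReal.mul_ne_top ENNReal.ofReal_ne_top (vol_add_seg_ne_top hK.compact w')) h
    rwa [ENNReal.toReal_mul, ENNReal.toReal_ofReal (by positivity)] at h2
  have hcontV : Continuous (fun w => (volume (K + segment ℝ (0 : E3) w)).toReal) := by
    rw [continuous_iff_continuousAt]
    intro w'
    have hlow : Filter.Tendsto (fun w : E3 =>
        (volume (K + segment ℝ (0 : E3) w')).toReal / (1 + ‖w - w'‖ / ρ) ^ 3) (nhds w')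
        (nhds (volume (K + segment ℝ (0 : E3) w')).toReal) := by
      have hc : Continuous (fun w : E3 =>
          (volume (K + segment ℝ (0 : E3) w')).toReal / (1 + ‖w - w'‖ / ρ) ^ 3) := by
        apply Continuous.div continuous_const (by fun_prop)
        intro w
        positivity
      have := hc.tendsto w'
      simpa using this
    have hup : Filter.Tendsto (fun w : E3 =>
        (1 + ‖w - w'‖ / ρ) ^ 3 * (volume (K + segment ℝ (0 : E3) w')).toReal) (nhds w')
        (nhds (volume (K + segment ℝ (0 : E3) w')).toReal) := by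
      have hc : Continuous (fun w : E3 =>
          (1 + ‖w - w'‖ / ρ) ^ 3 * (volume (K + segment ℝ (0 : E3) w')).toReal) := by fun_prop
      have := hc.tendsto w'
      simpa using this
    refine tendsto_of_tendsto_of_tendsto_of_le_of_le hlow hup ?_ ?_
    · intro w
      have := hV w' w
      rw [norm_sub_rev] at this
      show _ / _ ≤ _
      rw [div_le_iff₀ (by positivity)]
      linarith
    · intro w
      exact hV w w'
  exact hcontV.sub continuous_const

/-! ### M9b: Hausdorff-close convex bodies with a common ball are sandwiched by homotheties -/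

theorem M9b_sandwich {Ks K : Set E3} (hKs : Body Ks) (hK : Body K) (c : E3) {ρ : ℝ}
    (hρ : 0 < ρ) (hb1 : Metric.closedBall c ρ ⊆ Ks) (hb2 : Metric.closedBall c ρ ⊆ K) {η : ℝ}
    (hη0 : 0 < η) (hη1 : η < 1) (hd : Metric.hausdorffDist K Ks < η * ρ) :
    hom c (1 - η) '' Ks ⊆ K ∧ K ⊆ hom c (1 + η) '' Ks := by
  have hKne : K.Nonempty := hK.int.mono interior_subset
  have hKsne : Ks.Nonempty := hKs.int.mono interior_subset
  have hfin : Metric.hausdorffEDist K Ks ≠ ⊤ :=
    Metric.hausdorffEDist_ne_top_of_nonempty_of_bounded hKne hKsne hK.compact.isBounded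
      hKs.compact.isBounded
  have hfin' : Metric.hausdorffEDist Ks K ≠ ⊤ := by
    rwa [Metric.hausdorffEDist_comm]
  constructor
  · rintro _ ⟨x, hx, rfl⟩
    have h1 : Metric.infDist x K < η * ρ :=
      lt_of_le_of_lt (Metric.infDist_le_hausdorffDist_of_mem hx hfin')
        (by rwa [Metric.hausdorffDist_comm])
    obtain ⟨k, hk, hxk⟩ := (Metric.infDist_lt_iff hKne).mp h1
    have hpos : 0 ≤ (1 - η) / η := div_nonneg (by linarith) hη0.le
    have hz : c + ((1 - η) / η) • (x - k) ∈ K := by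
      apply hb2
      rw [Metric.mem_closedBall, dist_eq_norm, add_sub_cancel_left, norm_smul,
        Real.norm_of_nonneg hpos, ← dist_eq_norm]
      calc (1 - η) / η * dist x k ≤ (1 - η) / η * (η * ρ) :=
            mul_le_mul_of_nonneg_left hxk.le hpos
        _ = (1 - η) * ρ := by field_simp
        _ ≤ ρ := by nlinarith
    have hmem : (1 - η) • k + η • (c + ((1 - η) / η) • (x - k)) ∈ K :=
      hK.conv hk hz (by linarith) hη0.le (by ring)
    have e : hom c (1 - η) x = (1 - η) • k + η • (c + ((1 - η) / η) • (x - k)) := by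
      simp only [hom]
      match_scalars <;> field_simp <;> ring
    rw [e]
    exact hmem
  · intro x hx
    have h1 : Metric.infDist x Ks < η * ρ :=
      lt_of_le_of_lt (Metric.infDist_le_hausdorffDist_of_mem hx hfin) hd
    obtain ⟨y, hy, hxy⟩ := (Metric.infDist_lt_iff hKsne).mp h1
    have hmem : x ∈ Ks + Metric.closedBall (0 : E3) (η * ρ) := by
      refine ⟨y, hy, x - y, ?_, add_sub_cancel y x⟩
      rw [mem_closedBall_zero_iff, ← dist_eq_norm]
      exact hxy.le
    have h2 := add_ball_subset_hom hKs.conv hρ hb1 (by positivity : 0 ≤ η * ρ) hmem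
    have e : 1 + η * ρ / ρ = 1 + η := by field_simp
    rwa [e] at h2

end Vale.Agent.Lib.P243.R3.H25
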