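import Mathlib
import Vale.Agent.Lib.P243.R3.Defs

/-!
# P243, `r_3 > 1/3`: module M5 (bump functions and averages over segments)
-/

namespace Vale.Agent.Lib.P243.R3.H25

open MeasureTheory Set Vale.Agent.Lib.P243.R3
open scoped Pointwise

theorem M5a_bump_continuous {V : Set E3} (_hV : V.Nonempty) {τ : ℝ} (_hτ : 0 < τ) :
    Continuous (bump V τ) := by
  unfold bump
  exact continuous_const.max (continuous_const.sub
    ((Metric.continuous_infDist_pt V).div_const τ))

/-- The bounds need `0 ≤ τ` (for `τ < 0` the value can exceed one). -/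
theorem M5b_bump_mem (V : Set E3) {τ : ℝ} (hτ : 0 ≤ τ) (x : E3) :
    0 ≤ bump V τ x ∧ bump V τ x ≤ 1 := by
  unfold bump
  refine ⟨le_max_left _ _, max_le zero_le_one ?_⟩
  have h : 0 ≤ Metric.infDist x V / τ := div_nonneg Metric.infDist_nonneg hτ
  linarith

theorem M5e_avgSeg_symm (g : E3 → ℝ) (p q : E3) : avgSeg g p q = avgSeg g q p := by
  unfold avgSeg
  have h := intervalIntegral.integral_comp_sub_left (a := (0 : ℝ)) (b := 1)
    (fun t : ℝ => g (q + t • (p - q))) 1
  simp only [sub_self, sub_zero] at h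
  rw [← h]
  congr 1
  funext t
  congr 1
  module

theorem M5f_avgSeg_continuous {g : E3 → ℝ} (hg : Continuous g) :
    Continuous (fun pq : E3 × E3 => avgSeg g pq.1 pq.2) := by
  unfold avgSeg
  apply intervalIntegral.continuous_parametric_intervalIntegral_of_continuous'
  apply hg.comp
  fun_prop

theorem M5d_avg_bump_ge {V : Set E3} {p : E3} (hp : p ∈ V) (q : E3) {τ D : ℝ} (hτ : 0 < τ)
    (hτD : τ ≤ D) (hD : dist p q ≤ D) :
    τ / (2 * D) ≤ avgSeg (bump V τ) p q := by
  unfold avgSeg
  have hDpos : 0 < D := lt_of_lt_of_le hτ hτD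
  obtain ⟨c, hc⟩ : ∃ c : ℝ, c = τ / D := ⟨_, rfl⟩
  have hc0 : 0 < c := by rw [hc]; exact div_pos hτ hDpos
  have hc1 : c ≤ 1 := by rw [hc]; exact (div_le_one hDpos).mpr hτD
  have hcont : Continuous (fun t : ℝ => bump V τ (p + t • (q - p))) :=
    (M5a_bump_continuous ⟨p, hp⟩ hτ).comp (by fun_prop)
  have hsplit := intervalIntegral.integral_add_adjacent_intervals (μ := volume)
    (hcont.intervalIntegrable 0 c) (hcont.intervalIntegrable c 1)
  have h2 : 0 ≤ ∫ t in c..1, bump V τ (p + t • (q - p)) := by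
    apply intervalIntegral.integral_nonneg hc1
    intro t _
    exact le_max_left _ _
  have h1 : ∫ t in (0:ℝ)..c, (1 - t / c) ≤ ∫ t in (0:ℝ)..c, bump V τ (p + t • (q - p)) := by
    apply intervalIntegral.integral_mono_on hc0.le
    · exact (Continuous.intervalIntegrable (by fun_prop) _ _)
    · exact hcont.intervalIntegrable _ _
    · intro t ht
      have hinf : Metric.infDist (p + t • (q - p)) V ≤ t * D := by
        calc Metric.infDist (p + t • (q - p)) V ≤ dist (p + t • (q - p)) p :=
              Metric.infDist_le_dist_of_mem hp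
          _ = t * dist p q := by
              rw [dist_eq_norm, add_sub_cancel_left, norm_smul, Real.norm_of_nonneg ht.1,
                dist_eq_norm, norm_sub_rev]
          _ ≤ t * D := mul_le_mul_of_nonneg_left hD ht.1
      have h5 : Metric.infDist (p + t • (q - p)) V / τ ≤ t * D / τ :=
        div_le_div_of_nonneg_right hinf hτ.le
      have e : t / c = t * D / τ := by rw [hc]; field_simp
      calc 1 - t / c ≤ 1 - Metric.infDist (p + t • (q - p)) V / τ := by linarith
        _ ≤ bump V τ _ := le_max_right _ _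
  have h3 : ∫ t in (0:ℝ)..c, (1 - t / c) = c / 2 := by
    rw [intervalIntegral.integral_sub (Continuous.intervalIntegrable (by fun_prop) _ _)
      (Continuous.intervalIntegrable (by fun_prop) _ _)]
    rw [intervalIntegral.integral_div]
    simp only [intervalIntegral.integral_const, integral_id, sub_zero, smul_eq_mul, mul_one]
    field_simp
    ring
  have e : τ / (2 * D) = c / 2 := by rw [hc]; field_simp
  linarith

/-- The volume of a neighbourhood of a segment. -/
theorem thick_segment_le (a b : E3) {τ : ℝ} (hτ : 0 < τ) (hτ1 : τ ≤ 1) :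
    volume (Metric.thickening τ (segment ℝ a b)) ≤
      ENNReal.ofReal (8 * (volume (Metric.ball (0 : E3) 1)).toReal * (dist a b + 3) * τ ^ 2) := by
  obtain ⟨N, hN⟩ : ∃ N : ℕ, N = ⌈dist a b / τ⌉₊ + 1 := ⟨_, rfl⟩
  have hNpos : (0 : ℝ) < N := by rw [hN]; push_cast; positivity
  have hN1 : dist a b / τ ≤ N := by
    rw [hN]; push_cast
    have := Nat.le_ceil (dist a b / τ)
    linarith
  have hN2 : (N : ℝ) + 1 ≤ dist a b / τ + 3 := by
    rw [hN]; push_cast
    have := Nat.ceil_lt_add_one (div_nonneg dist_nonneg hτ.le : 0 ≤ dist a b / τ)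
    linarith
  have hstep : dist a b / N ≤ τ := by
    rw [div_le_iff₀ hNpos]
    rw [div_le_iff₀ hτ] at hN1
    linarith
  have hsub : Metric.thickening τ (segment ℝ a b) ⊆
      ⋃ i ∈ Finset.range (N + 1), Metric.ball (a + ((i : ℝ) / N) • (b - a)) (2 * τ) := by
    intro x hx
    rw [Metric.mem_thickening_iff] at hx
    obtain ⟨z, hz, hxz⟩ := hx
    rw [segment_eq_image'] at hz
    obtain ⟨t, ht, rfl⟩ := hz
    have htN : 0 ≤ t * N := mul_nonneg ht.1 hNpos.le
    have hi1 : (⌊t * N⌋₊ : ℝ) ≤ t * N := Nat.floor_le htN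
    have hi2 : t * N < ⌊t * N⌋₊ + 1 := Nat.lt_floor_add_one _
    have hiN : ⌊t * N⌋₊ ≤ N := by
      have : t * N ≤ N := by nlinarith [ht.2]
      exact_mod_cast (le_trans hi1 this)
    simp only [Set.mem_iUnion, Finset.mem_range, Metric.mem_ball, exists_prop]
    refine ⟨⌊t * N⌋₊, by omega, ?_⟩
    have hd : dist (a + t • (b - a)) (a + ((⌊t * N⌋₊ : ℝ) / N) • (b - a)) ≤ τ := by
      rw [dist_eq_norm]
      have e : a + t • (b - a) - (a + ((⌊t * N⌋₊ : ℝ) / N) • (b - a))
          = (t - (⌊t * N⌋₊ : ℝ) / N) • (b - a) := by module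
      rw [e, norm_smul, Real.norm_eq_abs, ← dist_eq_norm, dist_comm b a]
      have h0 : 0 ≤ t - (⌊t * N⌋₊ : ℝ) / N := by
        rw [sub_nonneg, div_le_iff₀ hNpos]; exact hi1
      have h1 : t - (⌊t * N⌋₊ : ℝ) / N ≤ 1 / N := by
        rw [sub_le_iff_le_add, ← add_div, le_div_iff₀ hNpos]; linarith
      rw [abs_of_nonneg h0]
      calc (t - (⌊t * N⌋₊ : ℝ) / N) * dist a b ≤ 1 / N * dist a b :=
            mul_le_mul_of_nonneg_right h1 dist_nonneg
        _ = dist a b / N := by ring
        _ ≤ τ := hstep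
    calc dist x (a + ((⌊t * N⌋₊ : ℝ) / N) • (b - a))
        ≤ dist x (a + t • (b - a)) + dist (a + t • (b - a)) (a + ((⌊t * N⌋₊ : ℝ) / N) • (b - a)) :=
          dist_triangle _ _ _
      _ < 2 * τ := by linarith
  have hB : volume (Metric.ball (0 : E3) 1) ≠ ⊤ := measure_ball_lt_top.ne
  have hball : ∀ y : E3, volume (Metric.ball y (2 * τ)) =
      ENNReal.ofReal ((2 * τ) ^ 3 * (volume (Metric.ball (0 : E3) 1)).toReal) := by
    intro y
    have h2 : (0 : ℝ) < 2 * τ := by positivity
    have := Measure.addHaar_ball_mul_of_pos (volume : Measure E3) y h2 1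
    rw [mul_one] at this
    rw [this, ENNReal.ofReal_mul (by positivity), ENNReal.ofReal_toReal hB]
    congr 2
    simp
  calc volume (Metric.thickening τ (segment ℝ a b))
      ≤ volume (⋃ i ∈ Finset.range (N + 1), Metric.ball (a + ((i : ℝ) / N) • (b - a)) (2 * τ)) :=
        measure_mono hsub
    _ ≤ ∑ i ∈ Finset.range (N + 1), volume (Metric.ball (a + ((i : ℝ) / N) • (b - a)) (2 * τ)) :=
        measure_biUnion_finset_le _ _
    _ = ENNReal.ofReal (((N : ℝ) + 1) * ((2 * τ) ^ 3 * (volume (Metric.ball (0 : E3) 1)).toReal)) := by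
        simp only [hball, Finset.sum_const, Finset.card_range, nsmul_eq_mul]
        rw [ENNReal.ofReal_mul (by positivity : (0 : ℝ) ≤ (N : ℝ) + 1)]
        congr 1
        rw [ENNReal.ofReal_add (by positivity) zero_le_one]
        simp
    _ ≤ ENNReal.ofReal (8 * (volume (Metric.ball (0 : E3) 1)).toReal * (dist a b + 3) * τ ^ 2) := by
        apply ENNReal.ofReal_le_ofReal
        have hBn : 0 ≤ (volume (Metric.ball (0 : E3) 1)).toReal := ENNReal.toReal_nonneg
        have h3 : τ ^ 3 ≤ τ ^ 2 := by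
          have : τ ^ 3 = τ ^ 2 * τ := by ring
          rw [this]
          exact mul_le_of_le_one_right (by positivity) hτ1
        have h4 : ((N : ℝ) + 1) * τ ^ 3 ≤ (dist a b + 3) * τ ^ 2 := by
          calc ((N : ℝ) + 1) * τ ^ 3 ≤ (dist a b / τ + 3) * τ ^ 3 :=
                mul_le_mul_of_nonneg_right hN2 (by positivity)
            _ = dist a b * τ ^ 2 + 3 * τ ^ 3 := by field_simp
            _ ≤ dist a b * τ ^ 2 + 3 * τ ^ 2 := by linarith
            _ = (dist a b + 3) * τ ^ 2 := by ring
        calc ((N : ℝ) + 1) * ((2 * τ) ^ 3 * (volume (Metric.ball (0 : E3) 1)).toReal)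
            = 8 * (volume (Metric.ball (0 : E3) 1)).toReal * (((N : ℝ) + 1) * τ ^ 3) := by ring
          _ ≤ 8 * (volume (Metric.ball (0 : E3) 1)).toReal * ((dist a b + 3) * τ ^ 2) :=
              mul_le_mul_of_nonneg_left h4 (by positivity)
          _ = _ := by ring

theorem M5c_bump_integral_le {K : Set E3} (hK : Body K) (α β : Fin 3 → E3) :
    ∃ C : ℝ, 0 ≤ C ∧ ∀ τ : ℝ, 0 < τ → τ ≤ 1 →
      ∫ x in K, bump (⋃ j, segment ℝ (α j) (β j)) τ x ≤ C * τ ^ 2 := by
  have hBn : 0 ≤ (volume (Metric.ball (0 : E3) 1)).toReal := ENNReal.toReal_nonneg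
  refine ⟨∑ j, 8 * (volume (Metric.ball (0 : E3) 1)).toReal * (dist (α j) (β j) + 3),
    Finset.sum_nonneg (fun j _ => by positivity), ?_⟩
  intro τ hτ hτ1
  obtain ⟨V, hV⟩ : ∃ V : Set E3, V = ⋃ j, segment ℝ (α j) (β j) := ⟨_, rfl⟩
  rw [← hV]
  have hVne : V.Nonempty := by
    refine ⟨α 0, ?_⟩
    rw [hV]
    exact Set.mem_iUnion.mpr ⟨0, left_mem_segment ℝ _ _⟩
  have hUmeas : MeasurableSet (Metric.thickening τ V) := Metric.isOpen_thickening.measurableSet
  have hle : ∀ x, bump V τ x ≤ (Metric.thickening τ V).indicator (fun _ => (1 : ℝ)) x := by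
    intro x
    by_cases hx : x ∈ Metric.thickening τ V
    · rw [Set.indicator_of_mem hx]
      exact (M5b_bump_mem V hτ.le x).2
    · rw [Set.indicator_of_notMem hx]
      have h1 : τ ≤ Metric.infDist x V := by
        by_contra h
        rw [not_le] at h
        rw [Metric.infDist_lt_iff hVne] at h
        exact hx (Metric.mem_thickening_iff.mpr h)
      have h2 : 1 ≤ Metric.infDist x V / τ := by
        rw [le_div_iff₀ hτ]; linarith
      unfold bump
      exact max_le le_rfl (by linarith)
  have hvol : volume (Metric.thickening τ V) ≤ ENNReal.ofReal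
      ((∑ j, 8 * (volume (Metric.ball (0 : E3) 1)).toReal * (dist (α j) (β j) + 3)) * τ ^ 2) := by
    rw [hV, Metric.thickening_iUnion]
    calc volume (⋃ j, Metric.thickening τ (segment ℝ (α j) (β j)))
        ≤ ∑ j, volume (Metric.thickening τ (segment ℝ (α j) (β j))) := by
          have := measure_biUnion_finset_le (μ := (volume : Measure E3)) (Finset.univ : Finset (Fin 3))
            (fun j => Metric.thickening τ (segment ℝ (α j) (β j)))
          simpa using this
      _ ≤ ∑ j, ENNReal.ofReal (8 * (volume (Metric.ball (0 : E3) 1)).toReal *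
            (dist (α j) (β j) + 3) * τ ^ 2) :=
          Finset.sum_le_sum (fun j _ => thick_segment_le (α j) (β j) hτ hτ1)
      _ = ENNReal.ofReal ((∑ j, 8 * (volume (Metric.ball (0 : E3) 1)).toReal *
            (dist (α j) (β j) + 3)) * τ ^ 2) := by
          rw [Finset.sum_mul, ENNReal.ofReal_sum_of_nonneg (fun j _ => by positivity)]
  have hint1 : IntegrableOn (bump V τ) K volume :=
    (M5a_bump_continuous hVne hτ).continuousOn.integrableOn_compact hK.compact
  have hint2 : IntegrableOn ((Metric.thickening τ V).indicator (fun _ => (1 : ℝ))) K volume :=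
    (integrableOn_const (hs := hK.compact.measure_lt_top.ne)).indicator hUmeas
  calc ∫ x in K, bump V τ x
      ≤ ∫ x in K, (Metric.thickening τ V).indicator (fun _ => (1 : ℝ)) x :=
        setIntegral_mono hint1 hint2 hle
    _ = (volume (K ∩ Metric.thickening τ V)).toReal := by
        rw [setIntegral_indicator hUmeas, setIntegral_const]
        simp [Measure.real]
    _ ≤ _ := by
        apply ENNReal.toReal_le_of_le_ofReal
        · exact mul_nonneg (Finset.sum_nonneg (fun j _ => by positivity)) (by positivity)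
        · exact le_trans (measure_mono Set.inter_subset_right) hvol

end Vale.Agent.Lib.P243.R3.H25
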