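import Mathlib
import Vale.Agent.Lib.P243.R3.Defs
import Vale.Agent.Lib.P243.R3.helper25.M1
import Vale.Agent.Lib.P243.R3.helper25.M5

/-!
# P243, `r_3 > 1/3`: module M6 (every convex body has a calibration with constant below 3)

`M6_of` takes the chord bound (M3a) and the hitting set (M4) as hypotheses, in the skeleton form.
-/

namespace Vale.Agent.Lib.P243.R3.H25

open MeasureTheory Set Vale.Agent.Lib.P243.R3
open scoped Pointwise

theorem Ahat_zero (K : Set E3) : Ahat K 0 = 0 := by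
  unfold Ahat
  rw [segment_same, Set.add_singleton]
  simp

theorem avgSeg_one_add_mul (ε : ℝ) {h : E3 → ℝ} (hh : Continuous h) (p q : E3) :
    avgSeg (fun x => 1 + ε * h x) p q = 1 + ε * avgSeg h p q := by
  unfold avgSeg
  have hc : Continuous (fun t : ℝ => h (p + t • (q - p))) := hh.comp (by fun_prop)
  have hi1 : IntervalIntegrable (fun _ : ℝ => (1 : ℝ)) volume 0 1 :=
    continuous_const.intervalIntegrable _ _
  have hi2 : IntervalIntegrable (fun t : ℝ => ε * h (p + t • (q - p))) volume 0 1 :=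
    (continuous_const.mul hc).intervalIntegrable _ _
  beta_reduce
  rw [intervalIntegral.integral_add hi1 hi2, intervalIntegral.integral_const_mul]
  simp

theorem avgSeg_one_sub {b : E3 → ℝ} (hb : Continuous b) (p q : E3) :
    avgSeg (fun x => 1 - b x) p q = 1 - avgSeg b p q := by
  unfold avgSeg
  have hc : Continuous (fun t : ℝ => b (p + t • (q - p))) := hb.comp (by fun_prop)
  have hi1 : IntervalIntegrable (fun _ : ℝ => (1 : ℝ)) volume 0 1 :=
    continuous_const.intervalIntegrable _ _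
  have hi2 : IntervalIntegrable (fun t : ℝ => b (p + t • (q - p))) volume 0 1 :=
    hc.intervalIntegrable _ _
  beta_reduce
  rw [intervalIntegral.integral_sub hi1 hi2]
  simp

theorem avgSeg_mem {b : E3 → ℝ} (hb : Continuous b) (h01 : ∀ x, 0 ≤ b x ∧ b x ≤ 1) (p q : E3) :
    0 ≤ avgSeg b p q ∧ avgSeg b p q ≤ 1 := by
  unfold avgSeg
  have hc : Continuous (fun t : ℝ => b (p + t • (q - p))) := hb.comp (by fun_prop)
  constructor
  · apply intervalIntegral.integral_nonneg zero_le_one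
    intro t _
    exact (h01 _).1
  · have h1 : ∫ t in (0 : ℝ)..1, b (p + t • (q - p)) ≤ ∫ _t in (0 : ℝ)..1, (1 : ℝ) := by
      apply intervalIntegral.integral_mono_on zero_le_one (hc.intervalIntegrable _ _)
        (continuous_const.intervalIntegrable _ _)
      intro t _
      exact (h01 _).2
    simpa using h1

/-- The per-body calibration, from the chord bound and a hitting set made of three segments
(the hitting set in the form of the current skeleton statement of M4). -/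
theorem M6_of' {K : Set E3} (hK : Body K)
    (h3a : ∀ p ∈ K, ∀ q ∈ K, Ahat K (q - p) ≤ 3 * (volume K).toReal)
    (h4 : ∃ α β : Fin 3 → E3,
      ∀ p ∈ K, ∀ q ∈ K, p ≠ q → Ahat K (q - p) = 3 * (volume K).toReal →
        (p ∈ ⋃ j, segment ℝ (α j) (β j)) ∨ (q ∈ ⋃ j, segment ℝ (α j) (β j))) :
    ∃ (g : E3 → ℝ) (Θ : ℝ), 0 < Θ ∧ Θ < 3 ∧ Good K g Θ := by
  obtain ⟨α, β, hhit⟩ := h4
  obtain ⟨C0, hC0, hbint⟩ := M5c_bump_integral_le hK α β
  obtain ⟨V, hVdef⟩ : ∃ V : Set E3, V = ⋃ j, segment ℝ (α j) (β j) := ⟨_, rfl⟩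
  rw [← hVdef] at hhit hbint
  have hVne : V.Nonempty :=
    ⟨α 0, by rw [hVdef]; exact Set.mem_iUnion.mpr ⟨0, left_mem_segment ℝ _ _⟩⟩
  have hvpos0 : 0 < (volume K).toReal :=
    ENNReal.toReal_pos (Measure.measure_pos_of_nonempty_interior _ hK.int).ne'
      hK.compact.measure_lt_top.ne
  obtain ⟨vK, hvK⟩ : ∃ vK : ℝ, vK = (volume K).toReal := ⟨_, rfl⟩
  rw [← hvK] at hvpos0 h3a hhit
  have hvpos : 0 < vK := hvpos0
  have hvne : vK ≠ 0 := hvpos.ne'
  -- a bound for the diameter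
  obtain ⟨C1, hC1⟩ := Metric.isBounded_iff.mp hK.compact.isBounded
  obtain ⟨D, hDdef⟩ : ∃ D : ℝ, D = max C1 1 := ⟨_, rfl⟩
  have hD1 : 1 ≤ D := by rw [hDdef]; exact le_max_right _ _
  have hD0 : 0 < D := lt_of_lt_of_le one_pos hD1
  have hDd : ∀ p ∈ K, ∀ q ∈ K, dist p q ≤ D := fun p hp q hq =>
    (hC1 hp hq).trans (by rw [hDdef]; exact le_max_left _ _)
  -- the scale
  obtain ⟨τ, hτdef⟩ : ∃ τ : ℝ, τ = min 1 (vK / (4 * (C0 + 1) * D)) := ⟨_, rfl⟩
  have hτ0 : 0 < τ := by rw [hτdef]; exact lt_min one_pos (by positivity)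
  have hτ1 : τ ≤ 1 := by rw [hτdef]; exact min_le_left _ _
  have hτ2 : τ ≤ vK / (4 * (C0 + 1) * D) := by rw [hτdef]; exact min_le_right _ _
  obtain ⟨β', hβdef⟩ : ∃ β' : ℝ, β' = τ / (2 * D) := ⟨_, rfl⟩
  have hβ0 : 0 < β' := by rw [hβdef]; positivity
  have hβ1 : β' ≤ 1 / 2 := by
    rw [hβdef, div_le_iff₀ (by positivity)]
    linarith
  have hβD : β' * (2 * D) = τ := by rw [hβdef]; field_simp
  -- the bump
  have hbc : Continuous (bump V τ) := M5a_bump_continuous hVne hτ0
  have hb01 : ∀ x, 0 ≤ bump V τ x ∧ bump V τ x ≤ 1 := M5b_bump_mem V hτ0.le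
  have hbK : ∫ x in K, bump V τ x ≤ vK * (β' / 2) := by
    have h1 := hbint τ hτ0 hτ1
    have h3 : τ * (4 * (C0 + 1) * D) ≤ vK := by rwa [le_div_iff₀ (by positivity)] at hτ2
    have h4 := mul_le_mul_of_nonneg_left h3 hβ0.le
    have h5 : 0 ≤ β' * τ * D := by positivity
    have h6 : C0 * τ ^ 2 = C0 * (β' * τ * D) * 2 := by rw [← hβD]; ring
    linarith
  have havg_b : ∀ p q, 0 ≤ avgSeg (bump V τ) p q ∧ avgSeg (bump V τ) p q ≤ 1 :=
    avgSeg_mem hbc hb01
  have havg_h : ∀ p q, avgSeg (fun x => 1 - bump V τ x) p q = 1 - avgSeg (bump V τ) p q :=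
    avgSeg_one_sub hbc
  have hIb : IntegrableOn (bump V τ) K volume :=
    hbc.continuousOn.integrableOn_compact hK.compact
  have hI1 : IntegrableOn (fun _ : E3 => (1 : ℝ)) K volume :=
    integrableOn_const (hs := hK.compact.measure_lt_top.ne)
  have hIh : ∫ x in K, (1 - bump V τ x) = vK - ∫ x in K, bump V τ x := by
    rw [integral_sub hI1 hIb, setIntegral_const]
    simp [Measure.real, hvK]
  have hIb0 : 0 ≤ ∫ x in K, bump V τ x :=
    setIntegral_nonneg hK.compact.measurableSet (fun x _ => (hb01 x).1)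
  obtain ⟨κ, hκdef⟩ : ∃ κ : ℝ, κ = (∫ x in K, (1 - bump V τ x)) / vK := ⟨_, rfl⟩
  have hκ1 : κ ≤ 1 := by
    rw [hκdef, div_le_one hvpos, hIh]
    linarith
  have hκ2 : 1 - β' / 2 ≤ κ := by
    rw [hκdef, le_div_iff₀ hvpos, hIh]
    linarith
  have hκ0 : 0 ≤ κ := by linarith
  have hκint : ∫ x in K, (1 - bump V τ x) = κ * vK := by
    rw [hκdef]
    field_simp
  -- efficient pairs are far below
  have heff : ∀ p ∈ K, ∀ q ∈ K, Ahat K (q - p) = 3 * vK →
      avgSeg (fun x => 1 - bump V τ x) p q - κ + β' / 4 < 0 := by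
    intro p hp q hq hpq
    have hne : p ≠ q := by
      rintro rfl
      rw [sub_self, Ahat_zero] at hpq
      linarith
    have hβle : β' ≤ avgSeg (bump V τ) p q := by
      have e : β' = τ / (2 * D) := hβdef
      rcases hhit p hp q hq hne hpq with h | h
      · rw [e]
        exact M5d_avg_bump_ge h q hτ0 (hτ1.trans hD1) (hDd p hp q hq)
      · rw [e, M5e_avgSeg_symm]
        exact M5d_avg_bump_ge h p hτ0 (hτ1.trans hD1) (hDd q hq p hp)
    rw [havg_h]
    linarith
  have hhc : Continuous (fun x => 1 - bump V τ x) := continuous_const.sub hbc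
  have hDc : Continuous (fun pq : E3 × E3 =>
      avgSeg (fun x => 1 - bump V τ x) pq.1 pq.2 - κ + β' / 4) :=
    ((M5f_avgSeg_continuous hhc).sub continuous_const).add continuous_const
  have hFc : Continuous (fun pq : E3 × E3 => Ahat K (pq.2 - pq.1)) :=
    (M1f_Ahat_continuous hK).comp (by fun_prop)
  obtain ⟨W, hWdef⟩ : ∃ W : Set (E3 × E3), W = (K ×ˢ K) ∩
      {pq | 0 ≤ avgSeg (fun x => 1 - bump V τ x) pq.1 pq.2 - κ + β' / 4} := ⟨_, rfl⟩
  have hWc : IsCompact W := by
    rw [hWdef]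
    exact (hK.compact.prod hK.compact).inter_right (isClosed_le continuous_const hDc)
  have hη : ∃ η : ℝ, 0 < η ∧ ∀ pq ∈ W, Ahat K (pq.2 - pq.1) ≤ 3 * vK - η := by
    rcases W.eq_empty_or_nonempty with hW | hW
    · refine ⟨1, one_pos, ?_⟩
      rw [hW]
      intro pq h
      exact absurd h (Set.notMem_empty _)
    · obtain ⟨pq0, hpq0, hmax⟩ := hWc.exists_isMaxOn hW hFc.continuousOn
      have hmem : pq0 ∈ (K ×ˢ K) ∩
          {pq | 0 ≤ avgSeg (fun x => 1 - bump V τ x) pq.1 pq.2 - κ + β' / 4} := by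
        rw [← hWdef]
        exact hpq0
      have hle := h3a pq0.1 hmem.1.1 pq0.2 hmem.1.2
      have hne : Ahat K (pq0.2 - pq0.1) ≠ 3 * vK := by
        intro heq
        have := heff pq0.1 hmem.1.1 pq0.2 hmem.1.2 heq
        exact absurd hmem.2 (not_le.mpr this)
      have hlt := lt_of_le_of_ne hle hne
      refine ⟨3 * vK - Ahat K (pq0.2 - pq0.1), by linarith, ?_⟩
      intro pq hpq
      have h1 : Ahat K (pq.2 - pq.1) ≤ Ahat K (pq0.2 - pq0.1) := hmax hpq
      linarith
  obtain ⟨η, hη0, hηW⟩ := hη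
  obtain ⟨ε, hεdef⟩ : ∃ ε : ℝ, ε = min 1 (η / (2 * (3 * vK))) := ⟨_, rfl⟩
  have hε0 : 0 < ε := by rw [hεdef]; exact lt_min one_pos (by positivity)
  have hε1 : ε ≤ 1 := by rw [hεdef]; exact min_le_left _ _
  have hε2 : ε * (3 * vK) ≤ η / 2 := by
    have h1 : ε ≤ η / (2 * (3 * vK)) := by rw [hεdef]; exact min_le_right _ _
    rw [le_div_iff₀ (by positivity)] at h1
    linarith
  have hεβ : ε * β' ≤ 1 / 2 := by
    have := mul_le_mul hε1 hβ1 hβ0.le zero_le_one
    linarith
  have hεβ0 : 0 < ε * β' := mul_pos hε0 hβ0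
  refine ⟨fun x => 1 + ε * (1 - bump V τ x), max (3 - η / (2 * vK)) (3 - 3 * ε * β' / 8),
    ?_, ?_, ?_, ?_, ?_⟩
  · apply lt_max_of_lt_right
    linarith
  · apply max_lt
    · have : 0 < η / (2 * vK) := by positivity
      linarith
    · linarith
  · exact continuous_const.add (continuous_const.mul hhc)
  · intro x
    have h1 := (hb01 x).1
    have h2 := (hb01 x).2
    have h3 : 0 ≤ ε * (1 - bump V τ x) := mul_nonneg hε0.le (sub_nonneg.mpr h2)
    have h4 : ε * (1 - bump V τ x) ≤ 1 := mul_le_one₀ hε1 (sub_nonneg.mpr h2) (by linarith)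
    constructor
    · linarith
    · linarith
  · intro p hp q hq
    have hg_avg : avgSeg (fun x => 1 + ε * (1 - bump V τ x)) p q =
        1 + ε * avgSeg (fun x => 1 - bump V τ x) p q := avgSeg_one_add_mul ε hhc p q
    have hIh' : IntegrableOn (fun x => ε * (1 - bump V τ x)) K volume :=
      (hI1.sub hIb).const_mul ε
    have hg_int : ∫ x in K, (1 + ε * (1 - bump V τ x)) = vK * (1 + ε * κ) := by
      rw [integral_add hI1 hIh', setIntegral_const, integral_const_mul, hκint]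
      simp only [Measure.real, ← hvK, smul_eq_mul, mul_one]
      ring
    rw [hg_avg, hg_int]
    obtain ⟨a, hadef⟩ : ∃ a : ℝ, a = avgSeg (fun x => 1 - bump V τ x) p q := ⟨_, rfl⟩
    rw [← hadef]
    have ha : a = 1 - avgSeg (bump V τ) p q := by rw [hadef]; exact havg_h p q
    have ha0 : 0 ≤ a := by linarith [(havg_b p q).2]
    have ha1 : a ≤ 1 := by linarith [(havg_b p q).1]
    have hA := h3a p hp q hq
    have hA0 := M1g_Ahat_nonneg hK.compact (q - p)
    have hεκ : 0 ≤ ε * κ := mul_nonneg hε0.le hκ0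
    have hεa : 0 ≤ ε * a := mul_nonneg hε0.le ha0
    have hεa1 : ε * a ≤ ε := by
      have := mul_le_mul_of_nonneg_left ha1 hε0.le
      linarith
    have hint_pos : 0 ≤ vK * (1 + ε * κ) := by positivity
    by_cases hW : (p, q) ∈ W
    · have h1 : Ahat K (q - p) ≤ 3 * vK - η := hηW (p, q) hW
      have hηM : η ≤ 3 * vK := by linarith
      have hΘ1 : 0 ≤ 3 - η / (2 * vK) := by
        have : η / (2 * vK) ≤ 3 / 2 := by
          rw [div_le_iff₀ (by positivity)]
          linarith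
        linarith
      calc (1 + ε * a) * Ahat K (q - p) ≤ (1 + ε) * (3 * vK - η) :=
            mul_le_mul (by linarith) h1 hA0 (by linarith)
        _ ≤ 3 * vK - η / 2 := by linarith [mul_nonneg hε0.le hη0.le]
        _ = (3 - η / (2 * vK)) * vK := by field_simp
        _ ≤ (3 - η / (2 * vK)) * (vK * (1 + ε * κ)) := by
            apply mul_le_mul_of_nonneg_left _ hΘ1
            linarith [mul_nonneg hvpos.le hεκ]
        _ ≤ max (3 - η / (2 * vK)) (3 - 3 * ε * β' / 8) * (vK * (1 + ε * κ)) :=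
            mul_le_mul_of_nonneg_right (le_max_left _ _) hint_pos
    · have hD : a - κ + β' / 4 < 0 := by
        by_contra hcon
        apply hW
        rw [hWdef]
        refine ⟨⟨hp, hq⟩, ?_⟩
        show 0 ≤ avgSeg (fun x => 1 - bump V τ x) p q - κ + β' / 4
        rw [← hadef]
        exact not_lt.mp hcon
      have hεκ1 : ε * κ ≤ 1 := by
        have := mul_le_mul hε1 hκ1 hκ0 zero_le_one
        linarith
      have key : 1 + ε * (κ - β' / 4) ≤ (1 - ε * β' / 8) * (1 + ε * κ) := by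
        have h0 : 0 ≤ ε * β' * (1 - ε * κ) := mul_nonneg hεβ0.le (sub_nonneg.mpr hεκ1)
        have e : (1 - ε * β' / 8) * (1 + ε * κ) - (1 + ε * (κ - β' / 4))
            = ε * β' * (1 - ε * κ) / 8 := by ring
        linarith
      have hstep0 : a ≤ κ - β' / 4 := by linarith
      have hstep : ε * a ≤ ε * (κ - β' / 4) := mul_le_mul_of_nonneg_left hstep0 hε0.le
      calc (1 + ε * a) * Ahat K (q - p) ≤ (1 + ε * (κ - β' / 4)) * (3 * vK) :=
            mul_le_mul (by linarith) hA hA0 (by linarith)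
        _ ≤ ((1 - ε * β' / 8) * (1 + ε * κ)) * (3 * vK) :=
            mul_le_mul_of_nonneg_right key (by positivity)
        _ = (3 - 3 * ε * β' / 8) * (vK * (1 + ε * κ)) := by ring
        _ ≤ max (3 - η / (2 * vK)) (3 - 3 * ε * β' / 8) * (vK * (1 + ε * κ)) :=
            mul_le_mul_of_nonneg_right (le_max_right _ _) hint_pos

/-- The same with the hitting set in the first skeleton form (endpoints in `K`). -/
theorem M6_of {K : Set E3} (hK : Body K)
    (h3a : ∀ p ∈ K, ∀ q ∈ K, Ahat K (q - p) ≤ 3 * (volume K).toReal)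
    (h4 : ∃ α β : Fin 3 → E3, (∀ j, α j ∈ K ∧ β j ∈ K) ∧
      ∀ p ∈ K, ∀ q ∈ K, p ≠ q → Ahat K (q - p) = 3 * (volume K).toReal →
        (p ∈ ⋃ j, segment ℝ (α j) (β j)) ∨ (q ∈ ⋃ j, segment ℝ (α j) (β j))) :
    ∃ (g : E3 → ℝ) (Θ : ℝ), 0 < Θ ∧ Θ < 3 ∧ Good K g Θ := by
  obtain ⟨α, β, -, hhit⟩ := h4
  exact M6_of' hK h3a ⟨α, β, hhit⟩

end Vale.Agent.Lib.P243.R3.H25
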