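import Mathlib
import Vale.Agent.Lib.P243.R3.Defs
import Vale.Agent.Lib.P243.R3.helper25.M1

/-!
# P243, `r_3 > 1/3`: M7b (monotonicity of `Good` in the constant), M8b and M8c (affine images)
-/

namespace Vale.Agent.Lib.P243.R3.H25

open MeasureTheory Set Vale.Agent.Lib.P243.R3
open scoped Pointwise

theorem M7b_good_mono {K : Set E3} (hK : Body K) {g : E3 → ℝ} {Θ Θ' : ℝ} (hG : Good K g Θ)
    (h : Θ ≤ Θ') : Good K g Θ' := by
  obtain ⟨hc, hb, hG3⟩ := hG
  refine ⟨hc, hb, fun p hp q hq => (hG3 p hp q hq).trans ?_⟩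
  have hint : 0 ≤ ∫ x in K, g x :=
    setIntegral_nonneg hK.compact.measurableSet (fun x _ => by linarith [(hb x).1])
  exact mul_le_mul_of_nonneg_right h hint

theorem aff_continuous (L : E3 ≃L[ℝ] E3) (v : E3) : Continuous (aff L v) := by
  unfold aff
  fun_prop

theorem M8b_body_aff (L : E3 ≃L[ℝ] E3) (v : E3) {K : Set E3} (hK : Body K) :
    Body (aff L v '' K) := by
  refine ⟨?_, hK.compact.image (aff_continuous L v), ?_⟩
  · rintro _ ⟨x, hx, rfl⟩ _ ⟨y, hy, rfl⟩ s t hs ht hst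
    refine ⟨s • x + t • y, hK.conv hx hy hs ht hst, ?_⟩
    simp only [aff, map_add, map_smul]
    have hv : v = s • v + t • v := by rw [← add_smul, hst, one_smul]
    calc s • L x + t • L y + v = s • L x + t • L y + (s • v + t • v) := by rw [← hv]
      _ = s • (L x + v) + t • (L y + v) := by module
  · obtain ⟨x, hx⟩ := hK.int
    have hh : aff L v = ⇑(L.toHomeomorph.trans (Homeomorph.addRight v)) := by
      funext y
      rfl
    rw [hh, ← Homeomorph.image_interior]
    exact ⟨_, x, hx, rfl⟩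

theorem avgSeg_aff (L : E3 ≃L[ℝ] E3) (v : E3) (g : E3 → ℝ) (p q : E3) :
    avgSeg (fun x => g (aff L v x)) p q = avgSeg g (aff L v p) (aff L v q) := by
  unfold avgSeg
  congr 1
  funext t
  simp only [aff, map_add, map_smul, map_sub]
  refine congrArg g ?_
  module

theorem integral_aff_image (L : E3 ≃L[ℝ] E3) (v : E3) {K : Set E3} (hK : MeasurableSet K)
    (g : E3 → ℝ) :
    ∫ x in aff L v '' K, g x =
      |LinearMap.det (L : E3 →ₗ[ℝ] E3)| * ∫ x in K, g (aff L v x) := by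
  have hder : ∀ x ∈ K, HasFDerivWithinAt (aff L v) (L : E3 →L[ℝ] E3) K x := by
    intro x _
    have h1 : HasFDerivAt (fun y : E3 => (L : E3 →L[ℝ] E3) y + v) (L : E3 →L[ℝ] E3) x :=
      (L : E3 →L[ℝ] E3).hasFDerivAt.add_const v
    exact h1.hasFDerivWithinAt
  have hinj : InjOn (aff L v) K := by
    intro x _ y _ hxy
    simp only [aff, add_left_inj] at hxy
    exact L.injective hxy
  rw [integral_image_eq_integral_abs_det_fderiv_smul volume hK hder hinj g]
  simp only [smul_eq_mul]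
  rw [integral_const_mul]
  rfl

theorem M8c_good_of_aff (L : E3 ≃L[ℝ] E3) (v : E3) {K : Set E3} (hK : Body K) {g : E3 → ℝ}
    {Θ : ℝ} (hG : Good (aff L v '' K) g Θ) : Good K (fun x => g (aff L v x)) Θ := by
  obtain ⟨hc, hb, hG3⟩ := hG
  refine ⟨hc.comp (aff_continuous L v), fun x => hb _, ?_⟩
  intro p hp q hq
  have h := hG3 (aff L v p) ⟨p, hp, rfl⟩ (aff L v q) ⟨q, hq, rfl⟩
  have e1 : aff L v q - aff L v p = L (q - p) := by
    simp only [aff, map_sub]
    abel
  rw [e1, M1d_Ahat_aff, integral_aff_image L v hK.compact.measurableSet, ← avgSeg_aff] at h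
  have hdet : 0 < |LinearMap.det (L : E3 →ₗ[ℝ] E3)| :=
    abs_pos.mpr (L.toLinearEquiv.isUnit_det').ne_zero
  have h' : |LinearMap.det (L : E3 →ₗ[ℝ] E3)| *
      (avgSeg (fun x => g (aff L v x)) p q * Ahat K (q - p)) ≤
      |LinearMap.det (L : E3 →ₗ[ℝ] E3)| * (Θ * ∫ x in K, g (aff L v x)) := by
    calc _ = avgSeg (fun x => g (aff L v x)) p q *
          (|LinearMap.det (L : E3 →ₗ[ℝ] E3)| * Ahat K (q - p)) := by ring
      _ ≤ Θ * (|LinearMap.det (L : E3 →ₗ[ℝ] E3)| * ∫ x in K, g (aff L v x)) := h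
      _ = _ := by ring
  exact le_of_mul_le_mul_left h' hdet

end Vale.Agent.Lib.P243.R3.H25
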